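import Vale.Agent.P281.H713.TL.Iface
import Vale.Agent.P281.H498.KD.TL

/-!
# P281, theorem TL, row T6: comparison with the orbifold base
-/

open scoped Manifold ContDiff Topology ComplexOrder
open Set Filter Vale.Agent.P281 Vale.Agent.P272.K

set_option linter.all false

noncomputable section

namespace Vale.Agent.P281.H455.TL

open Vale.Agent.P281.H713.TL Vale.Agent.P281.H716 Vale.Agent.P281.H716.IsSys Vale.Agent.P281.MF
open Vale.Agent.P281.ISO Vale.Agent.P281.H713.SA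

/-- the poles of the pulled back sections -/
theorem isPull {n p m : ℕ} {X Z Y : Type} [TopologicalSpace X] [ChartedSpace (Cm n) X]
    [IsManifold 𝓘(ℂ, Cm n) ω X] [TopologicalSpace Z] [ChartedSpace (Cm n) Z]
    [TopologicalSpace Y] [ChartedSpace (Cm p) Y] {Δ : Set X → ℝ} (hΔ : J.IsSNC (Cm n) Δ)
    {K : Set X → ℕ} (hm : 0 < m) (hK : ∀ D, (K D : ℝ) = m * Δ D) {𝒢 : Set (Set Y)} {j : Z → X}
    {f : Z → Y} {σ : Y → ℂ} {τ : Vale.Agent.P299.D.Ten n (m * p) X} (hτ : IsTenP (m * p) K τ)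
    (hτσ : ∀ e z, At e (j z) → f z ∉ ⋃₀ 𝒢 → (∀ D, Δ D ≠ 0 → j z ∉ D) →
      ∀ I, τ e (e (j z)) I = σ (f z) * tT f m (fun z => e (j z)) I z) (x : X) :
    ∃ (T : Finset (Set X)) (g : Set X → X → ℂ), (∀ D, K D ≠ 0 → D ∈ T) ∧
      (∀ D ∈ T, J.IsLocalEq (Cm n) D (g D) x) ∧ ∀ I : Fin m → Fin p → Fin n, ∃ a : X → ℂ,
        J.HolAt (Cm n) a x ∧ ∀ᶠ y in 𝓝 x, ∀ z, j z = y → (∀ G ∈ 𝒢, f z ∉ G) →
          ∏ D ∈ T, g D y ^ K D ≠ 0 →
            σ (f z) * minors m j f x z I * ∏ D ∈ T, g D y ^ K D = a y := by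
  classical
  set T : Finset (Set X) := hΔ.1.toFinset with hTdef
  have hTΔ : ∀ D, D ∈ T ↔ Δ D ≠ 0 := fun D => Set.Finite.mem_toFinset _
  have hKΔ : ∀ D, K D ≠ 0 ↔ Δ D ≠ 0 := by
    intro D
    have h1 := hK D
    have hm' : (m : ℝ) ≠ 0 := by exact_mod_cast hm.ne'
    constructor
    · intro h2 h3
      rw [h3, mul_zero] at h1
      exact h2 (by exact_mod_cast h1)
    · intro h2 h3
      rw [h3, Nat.cast_zero] at h1
      exact mul_ne_zero hm' h2 h1.symm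
  have hex : ∀ D ∈ T, ∃ g, J.IsLocalEq (Cm n) D g x := fun D hD =>
    (hΔ.2.1 D ((hTΔ D).1 hD)).2.1 x
  choose! g hg using hex
  refine ⟨T, g, fun D hD => (hTΔ D).2 ((hKΔ D).1 hD), hg, fun I => ?_⟩
  set e : Chart n X := chartAt (Cm n) x with hedef
  have he : At e x := ⟨chart_mem_atlas (Cm n) _, mem_chart_source (Cm n) _⟩
  set I' : Fin (m * p) → Fin n := fun s =>
    I (finProdFinEquiv.symm s).1 (finProdFinEquiv.symm s).2 with hI'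
  obtain ⟨a, ha, hev⟩ := hτ.holo e x he T g (fun D hD => (hTΔ D).2 ((hKΔ D).1 hD)) hg I'
  refine ⟨fun y => a (e y), ?_, ?_⟩
  · exact HolV.comp_contDiff (G := a) (v := fun y => e y) ha.contDiffAt (chart_contMDiffAt he)
  · have h3 : ∀ᶠ y in 𝓝 x, ∀ D ∈ T, J.IsLocalEq (Cm n) D (g D) y := by
      rw [Filter.eventually_all_finset]
      exact fun D hD => IsLocalEq.eventually (E := Cm n) (D := D) (hg D hD)
    filter_upwards [(e.continuousAt he.2).eventually hev, e.open_source.mem_nhds he.2, h3]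
      with y h1 h2 h4 z hzy hz hne
    subst hzy
    rw [e.left_inv h2] at h1
    have h5 := h1 hne
    have hoff : ∀ D, Δ D ≠ 0 → j z ∉ D := by
      intro D hD hmem
      have h6 : g D (j z) = 0 :=
        (IsLocalEq.mem_iff (E := Cm n) (D := D) (h4 D ((hTΔ D).2 hD))).1 hmem
      refine Finset.prod_ne_zero_iff.1 hne D ((hTΔ D).2 hD) ?_
      rw [h6, zero_pow ((hKΔ D).2 hD)]
    have hz' : f z ∉ ⋃₀ 𝒢 := by
      rintro ⟨G, hG, hGz⟩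
      exact hz G hG hGz
    have h7 := hτσ e z ⟨he.1, h2⟩ hz' hoff I'
    have h8 : tT f m (fun z => e (j z)) I' z = minors m j f x z I := by
      unfold tT tq minors mK
      refine Finset.prod_congr rfl fun r _ => ?_
      congr 1
      ext a b
      simp only [Matrix.of_apply, hI', Equiv.symm_apply_apply]
      rfl
    rw [← h8, ← h7]
    exact h5

/-- sections of `m (K_Y + B)`, `B ≤ B(f, Δ')`, pull back to sections with poles `≤ m Δ` -/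
theorem isPullSection_of {n p : ℕ} {X Z Y : Type}
    [TopologicalSpace X] [T2Space X]
    [ChartedSpace (Cm n) X] [IsManifold 𝓘(ℂ, Cm n) ω X]
    [TopologicalSpace Z] [ChartedSpace (Cm n) Z] [IsManifold 𝓘(ℂ, Cm n) ω Z]
    [TopologicalSpace Y] [T2Space Y] [ConnectedSpace Y]
    [ChartedSpace (Cm p) Y] [IsManifold 𝓘(ℂ, Cm p) ω Y] {Δ : Set X → ℝ}
    (hΔ : J.IsSNC (Cm n) Δ) {j : Z → X} (hj : J.IsBigOpen (Cm n) j) {f : Z → Y}
    (hf : ContMDiff 𝓘(ℂ, Cm n) 𝓘(ℂ, Cm p) ω f) {𝒢 : Set (Set Y)}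
    (h𝒢 : J.IsDivisorial (Cm n) (Cm p) f 𝒢) {Δ' : Set Z → ℝ} (hΔ' : J.IsSNC (Cm n) Δ')
    (hres : J.IsRestriction j Δ Δ') {m : ℕ} (hm : 0 < m) {K : Set X → ℕ}
    (hK : ∀ D, (K D : ℝ) = m * Δ D) {k : Set Y → ℕ}
    (hk : ∀ G, (k G : ℝ) ≤ m * J.orbBase' (Cm n) (Cm p) f Δ' G) (hkG : ∀ G, k G ≠ 0 → G ∈ 𝒢)
    {σ : Y → ℂ}
    (hσ : J.IsSection (Cm p) (fun (D : Set Y) z g => J.IsLocalEq (Cm p) D g z) m k σ) :
    IsPullSection (n := n) (p := p) m K 𝒢 j f σ := by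
  obtain ⟨τ, hτ, hτσ⟩ := H498.tensL n p X Z Y j hj f hf 𝒢 h𝒢 Δ hΔ Δ' hΔ' hres m K hK k hk hkG σ hσ
  exact ⟨⟨k, hkG, hσ⟩, fun x => isPull hΔ hm hK hτ hτσ x⟩

/-- **Row T6** -/
theorem compPartT : CompPartT := by
  intro n p X Z Y _ _ _ _ _ _ _ _ _ _ _ _ _ _ Δ hΔ j hj f hf 𝒢 h𝒢 Δ' hΔ' hres hbase
  classical
  unfold J.kod kodF
  refine iSup₂_le fun l hl => ?_
  obtain ⟨m₂, k, σ, y₀, hm₂, hk, hσ, hky₀, hσ0, hσl⟩ := hl
  obtain ⟨M₀, hM₀, K₀, hK₀, -⟩ := exists_denominator (JB.snc hΔ)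
  obtain ⟨N₀, rfl⟩ : ∃ N₀, M₀ = N₀ + 1 := ⟨M₀ - 1, by omega⟩
  -- the boundary of `Y`
  set TY : Finset (Set Y) := h𝒢.1.toFinset with hTYdef
  have hTY : ∀ G, G ∈ TY ↔ G ∈ 𝒢 := fun G => Set.Finite.mem_toFinset _
  have hTYex : ∀ G ∈ TY, ∀ x, ∃ g, J.IsLocalEq (Cm p) G g x := fun G hG =>
    (h𝒢.2.1 G ((hTY G).1 hG)).2.1
  have hsY : IsSys p (eqL p) TY := isSys_eqL hTYex
  have hkG : ∀ G, k G ≠ 0 → G ∈ 𝒢 := by
    intro G hG
    refine hbase G fun h0 => ?_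
    have h3 := hk G
    rw [h0, mul_zero] at h3
    exact hG (by exact_mod_cast h3)
  have hkGT : ∀ G, k G ≠ 0 → G ∈ TY := fun G hG => (hTY G).2 (hkG G hG)
  have hkfin : {G | k G ≠ 0}.Finite := h𝒢.1.subset fun G hG => hkG G hG
  have hkpr : ∀ G, k G ≠ 0 → IsPrimeDivisor (Cm p) G := fun G hG => h𝒢.2.1 G (hkG G hG)
  have hy₀ : ∀ G, k G ≠ 0 → y₀ ∉ G := by
    intro G hG hy
    obtain ⟨g, hg, hg0⟩ := hky₀ G hG
    exact hg0 (IsLocalEq.mem_iff (E := Cm p) (D := G) hg |>.1 hy)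
  set s' : Fin (l + 1) → Y → ℂ := fun b => σ b with hs'
  have hs'0 : s' 0 = σ 0 := rfl
  have hs's : ∀ b : Fin l, s' b.succ = σ (b + 1) := fun b => by simp [hs']
  have hli : LinearIndependent ℂ (fun b : Fin l =>
      dif (Cm p) (fun w => s' b.succ w / s' 0 w) y₀) := by
    refine JB.linearIndependent_of_surjective ?_
    simp only [hs's, hs'0]
    exact hσl
  have hodY := H713.SA.ind_open_dense (n := p) (κ := k) (s := s') hkfin hkpr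
    (fun b => hσ b) ⟨y₀, hy₀, hσ0, hli⟩
  have h𝒢od := dense_compl_finite (X := Y) h𝒢.1 (fun G hG => (h𝒢.2.1 G hG).1) (fun G hG => by
    rw [dense_iff_inter_open]
    intro U hU hUne
    obtain ⟨x, hxU, hxD⟩ := IsLocalEq.exists_notMem (h𝒢.2.1 G hG).2.1 hU hUne
    exact ⟨x, hxU, hxD⟩)
  have hYd : Dense (H713.SA.Ind (n := p) k s' ∩ {y | ∀ G ∈ 𝒢, y ∉ G}) :=
    hodY.2.inter_of_isOpen_left h𝒢od.2 hodY.1
  obtain ⟨y₂, ⟨hky₂, hσy₂, hly₂⟩, hy₂⟩ := hYd.nonempty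
  -- the powers
  have hσ's : ∀ b, J.IsSection (Cm p) (eqL p) ((N₀ + 1) * m₂) ((N₀ + 1) • k)
      (fun y => σ 0 y ^ N₀ * σ b y) := fun b =>
    hsY.pow_mul hkGT (hσ 0) (hσ b) N₀ (fun G hG => hkGT G fun h0 => hG (by
      rw [Pi.smul_apply, h0, smul_zero])) fun G => by rw [Pi.smul_apply, smul_eq_mul]
  have hm' : 0 < (N₀ + 1) * m₂ := Nat.mul_pos (Nat.succ_pos _) hm₂
  have hK' : ∀ D, (((fun D => m₂ * K₀ D) D : ℕ) : ℝ) = ((N₀ + 1) * m₂ : ℕ) * Δ D := by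
    intro D
    have h6 := hK₀ D
    push_cast at h6 ⊢
    rw [h6]
    ring
  have hk' : ∀ G, ((((N₀ + 1) • k) G : ℕ) : ℝ) ≤ ((N₀ + 1) * m₂ : ℕ) *
      J.orbBase' (Cm n) (Cm p) f Δ' G := by
    intro G
    rw [Pi.smul_apply, smul_eq_mul]
    push_cast
    rw [hk G, mul_assoc]
  have hkG' : ∀ G, ((N₀ + 1) • k) G ≠ 0 → G ∈ 𝒢 := fun G hG => hkG G fun h0 =>
    hG (by rw [Pi.smul_apply, h0, smul_zero])
  refine le_iSup₂_of_le l ⟨(N₀ + 1) * m₂, fun D => m₂ * K₀ D, 𝒢,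
    fun b y => σ 0 y ^ N₀ * σ b y, y₂, hm', fun D => (hK' D).le, h𝒢.1, h𝒢.2.1, fun b => ?_, hy₂,
    mul_ne_zero (pow_ne_zero _ hσy₂) hσy₂, ?_⟩ le_rfl
  · exact isPullSection_of hΔ hj hf h𝒢 hΔ' hres hm' hK' hk' hkG' (hσ's b)
  · have h3 : ∀ᶠ y in 𝓝 y₂, σ 0 y ≠ 0 := (secAt_of hkpr (hσ 0) hky₂).ev_ne hσy₂
    have h4 : ∀ b : Fin l, J.dif (Cm p) (fun w => σ 0 w ^ N₀ * σ (b + 1) w /
        (σ 0 w ^ N₀ * σ 0 w)) y₂ = dif (Cm p) (fun w => s' b.succ w / s' 0 w) y₂ := by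
      intro b
      refine dV_congr (E := Cm p) ?_
      filter_upwards [h3] with w hw
      rw [hs's, hs'0, mul_div_mul_left _ _ (pow_ne_zero _ hw)]
    have h5 := JB.surjective_of_linearIndependent hly₂
    simp only [h4]
    exact h5

end Vale.Agent.P281.H455.TL
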